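import Vale.Agent.H11.TS.DefsB

namespace Vale.Agent.H11.TS

open Filter Topology Metric
open scoped RealInnerProductSpace

theorem exists_orthonormal_coords_aux {T : Type*} [AddCommGroup T] [Module ℝ T]
    [FiniteDimensional ℝ T] (b : T →ₗ[ℝ] T →ₗ[ℝ] ℝ) (hs : ∀ u v, b u v = b v u)
    (hp : ∀ u, u ≠ 0 → 0 < b u u) :
    ∃ L : EuclideanSpace ℝ (Fin (Module.finrank ℝ T)) ≃ₗ[ℝ] T,
      ∀ u v, b (L u) (L v) = ⟪u, v⟫ := by
  let c : InnerProductSpace.Core ℝ T :=
    { inner := fun u v => b u v
      conj_inner_symm := fun u v => by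
        change (starRingEnd ℝ) (b v u) = b u v
        rw [hs v u]; rfl
      re_inner_nonneg := fun u => by
        change 0 ≤ b u u
        by_cases hu : u = 0
        · simp [hu]
        · exact (hp u hu).le
      definite := fun u hu => by
        change b u u = 0 at hu
        by_contra h
        exact (hp u h).ne' hu
      add_left := fun u v w => by
        change b (u + v) w = b u w + b v w
        simp
      smul_left := fun u v r => by
        change b (r • u) v = r * b u v
        simp }
  let i1 : NormedAddCommGroup T := c.toNormedAddCommGroup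
  let i2 : InnerProductSpace ℝ T := InnerProductSpace.ofCore c.toCore
  refine ⟨(stdOrthonormalBasis ℝ T).repr.symm.toLinearEquiv, fun u v => ?_⟩
  change inner ℝ ((stdOrthonormalBasis ℝ T).repr.symm u) ((stdOrthonormalBasis ℝ T).repr.symm v)
    = inner ℝ u v
  exact LinearIsometryEquiv.inner_map_map _ u v

theorem exists_orthonormal_coords {T : Type*} [NormedAddCommGroup T] [NormedSpace ℝ T]
    [FiniteDimensional ℝ T] (b : T →L[ℝ] T →L[ℝ] ℝ) (hs : ∀ u v, b u v = b v u)
    (hp : ∀ u, u ≠ 0 → 0 < b u u) :
    ∃ L : EuclideanSpace ℝ (Fin (Module.finrank ℝ T)) ≃L[ℝ] T,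
      ∀ u v, b (L u) (L v) = ⟪u, v⟫ := by
  obtain ⟨L, hL⟩ := exists_orthonormal_coords_aux
    (LinearMap.mk₂ ℝ (fun u v => b u v) (by intros; simp) (by intros; simp) (by intros; simp)
      (by intros; simp)) (fun u v => by simpa using hs u v) (fun u hu => by simpa using hp u hu)
  refine ⟨L.toContinuousLinearEquiv, fun u v => ?_⟩
  simpa using hL u v

end Vale.Agent.H11.TS
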