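import Vale.Agent.H11.TS.Defs
import Vale.Agent.H11.TS.DefsB

namespace Vale.Agent.H11.TS

open Filter Topology Metric
open scoped RealInnerProductSpace

variable {X Y : Type*} [NormedAddCommGroup X] [NormedSpace ℝ X]
    [NormedAddCommGroup Y] [NormedSpace ℝ Y]

/-! ## Row B0: the homogeneous extension -/

theorem exists_sphMap (f : sphere (0 : X) 1 → sphere (0 : Y) 1) (hf : Isometry f)
    (hs : Function.Surjective f) :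
    ∃ Φ : X → Y, SphMap Φ ∧ ∀ x : sphere (0 : X) 1, Φ x = f x := by
  sorry

theorem SphMap.exists_inverse {Φ : X → Y} (h : SphMap Φ) :
    ∃ Ψ : Y → X, SphMap Ψ ∧ (∀ x, Ψ (Φ x) = x) ∧ ∀ y, Φ (Ψ y) = y := by
  sorry

theorem SphMap.neg [StrictConvexSpace ℝ X] {Φ : X → Y} (h : SphMap Φ) (x : X) :
    Φ (-x) = -Φ x := by
  sorry

theorem SphMap.strictConvex [StrictConvexSpace ℝ X] {Φ : X → Y} (h : SphMap Φ) :
    StrictConvexSpace ℝ Y := by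
  sorry

theorem SphMap.lipschitz {Φ : X → Y} (h : SphMap Φ) : LipschitzWith 3 Φ := by
  sorry

/-! ## Row B0b: dimensions -/

theorem SphMap.finiteDimensional [FiniteDimensional ℝ X] {Φ : X → Y} (h : SphMap Φ) :
    FiniteDimensional ℝ Y := by
  sorry

theorem SphMap.finrank_eq [FiniteDimensional ℝ X] [FiniteDimensional ℝ Y] {Φ : X → Y}
    (h : SphMap Φ) : Module.finrank ℝ Y = Module.finrank ℝ X := by
  sorry

/-! ## Row B1: orthonormal coordinates for a positive definite form -/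

theorem exists_orthonormal_coords {T : Type*} [NormedAddCommGroup T] [NormedSpace ℝ T]
    [FiniteDimensional ℝ T] (b : T →L[ℝ] T →L[ℝ] ℝ) (hs : ∀ u v, b u v = b v u)
    (hp : ∀ u, u ≠ 0 → 0 < b u u) :
    ∃ L : EuclideanSpace ℝ (Fin (Module.finrank ℝ T)) ≃L[ℝ] T,
      ∀ u v, b (L u) (L v) = ⟪u, v⟫ := by
  sorry

/-! ## Row B2: calculus of the norm -/

theorem N1_self {x : X} (hx : DifferentiableAt ℝ (fun y : X => ‖y‖) x) : N1 X x x = ‖x‖ := by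
  sorry

theorem N1_smul (x : X) {t : ℝ} (ht : 0 < t) : N1 X (t • x) = N1 X x := by
  sorry

theorem N1_neg (x : X) : N1 X (-x) = -N1 X x := by
  sorry

theorem N1_le (x v : X) : |N1 X x v| ≤ ‖v‖ := by
  sorry

theorem N2_smul (x : X) {t : ℝ} (ht : 0 < t) : N2 X (t • x) = t⁻¹ • N2 X x := by
  sorry

theorem N2_self {x : X} (hx : ContDiffAt ℝ 2 (fun y : X => ‖y‖) x) : N2 X x x = 0 := by
  sorry

theorem N2_symm {x : X} (hx : ContDiffAt ℝ 2 (fun y : X => ‖y‖) x) (u v : X) :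
    N2 X x u v = N2 X x v u := by
  sorry

theorem SmoothStrong.strictConvex (hX : SmoothStrong X) : StrictConvexSpace ℝ X := by
  sorry

/-! ## Row S0: a norm with unique norming functionals is `C¹` -/

theorem differentiableAt_norm_of_unique [FiniteDimensional ℝ Y] {w : Y} (hw : w ≠ 0)
    (h : ∀ φ ψ : Y →L[ℝ] ℝ, (∀ y, φ y ≤ ‖y‖) → (∀ y, ψ y ≤ ‖y‖) → φ w = ‖w‖ → ψ w = ‖w‖ → φ = ψ) :
    DifferentiableAt ℝ (fun y : Y => ‖y‖) w := by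
  sorry

theorem contDiffAt_norm_of_unique [FiniteDimensional ℝ Y]
    (h : ∀ w : Y, w ≠ 0 → ∀ φ ψ : Y →L[ℝ] ℝ, (∀ y, φ y ≤ ‖y‖) → (∀ y, ψ y ≤ ‖y‖) →
      φ w = ‖w‖ → ψ w = ‖w‖ → φ = ψ) {w : Y} (hw : w ≠ 0) :
    ContDiffAt ℝ 1 (fun y : Y => ‖y‖) w := by
  sorry

/-! ## Row S1: norming functionals of the target are unique -/

theorem SphMap.unique_norming [FiniteDimensional ℝ X] [FiniteDimensional ℝ Y]
    [StrictConvexSpace ℝ X]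
    (hX : ∀ x : X, x ≠ 0 → DifferentiableAt ℝ (fun y : X => ‖y‖) x)
    {Φ : X → Y} (hΦ : SphMap Φ) (w : Y) (hw : w ≠ 0) (φ ψ : Y →L[ℝ] ℝ) (hφ : ∀ y, φ y ≤ ‖y‖)
    (hψ : ∀ y, ψ y ≤ ‖y‖) (hφw : φ w = ‖w‖) (hψw : ψ w = ‖w‖) : φ = ψ := by
  sorry

/-! ## Row B3: smoothness of the map -/

theorem SphMap.contDiffAt [FiniteDimensional ℝ Y] {k : ℕ} (hk : 1 ≤ k)
    (hX : ∀ x : X, x ≠ 0 → ContDiffAt ℝ k (fun y : X => ‖y‖) x)
    (hY : ∀ y : Y, y ≠ 0 → ContDiffAt ℝ k (fun y : Y => ‖y‖) y)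
    {Φ : X → Y} (hΦ : SphMap Φ) {x : X} (hx : x ≠ 0) : ContDiffAt ℝ k Φ x := by
  sorry

/-! ## Row S2: smoothness of the target norm, bootstrap -/

theorem SphMap.contDiffAt_norm_succ [FiniteDimensional ℝ X] [FiniteDimensional ℝ Y]
    [StrictConvexSpace ℝ X] {k : ℕ} (hk : 1 ≤ k)
    (hX : ∀ x : X, x ≠ 0 → ContDiffAt ℝ (k + 1 : ℕ) (fun y : X => ‖y‖) x)
    (hY : ∀ y : Y, y ≠ 0 → ContDiffAt ℝ k (fun y : Y => ‖y‖) y)
    {Φ : X → Y} (hΦ : SphMap Φ) (hΦk : ∀ x : X, x ≠ 0 → ContDiffAt ℝ k Φ x)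
    {w : Y} (hw : w ≠ 0) : ContDiffAt ℝ (k + 1 : ℕ) (fun y : Y => ‖y‖) w := by
  sorry

/-! ## Rows B4: identities -/

/-- the first derivative is an isometry between tangent spaces -/
theorem SphMap.norm_fderiv {Φ : X → Y} (hΦ : SphMap Φ) {x : X} (hx : x ≠ 0)
    (hN : DifferentiableAt ℝ (fun y : X => ‖y‖) x) (hd : DifferentiableAt ℝ Φ x) (v : X) :
    ‖fderiv ℝ Φ x v - (N1 X x v / ‖x‖) • Φ x‖ = ‖v - (N1 X x v / ‖x‖) • x‖ := by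
  sorry

theorem SphMap.fderiv_self {Φ : X → Y} (hΦ : SphMap Φ) {x : X}
    (hd : DifferentiableAt ℝ Φ x) : fderiv ℝ Φ x x = Φ x := by
  sorry

theorem SphMap.norming_fderiv {Φ : X → Y} (hΦ : SphMap Φ) {x : X}
    (hN : DifferentiableAt ℝ (fun y : X => ‖y‖) x) (hd : DifferentiableAt ℝ Φ x)
    (φ : Y →L[ℝ] ℝ) (hφ : ∀ y, φ y ≤ ‖y‖) (hφx : φ (Φ x) = ‖Φ x‖) (v : X) :
    φ (fderiv ℝ Φ x v) = N1 X x v := by
  sorry

theorem SphMap.fderiv_bijective [FiniteDimensional ℝ X] [FiniteDimensional ℝ Y]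
    {Φ : X → Y} (hΦ : SphMap Φ) {x : X} (hx : x ≠ 0)
    (hN : DifferentiableAt ℝ (fun y : X => ‖y‖) x) (hd : DifferentiableAt ℝ Φ x) :
    Function.Bijective (fderiv ℝ Φ x) := by
  sorry

/-- all the smoothness that is used in rows B4 -/
structure Smooth3 (Φ : X → Y) : Prop where
  nX : ∀ x : X, x ≠ 0 → ContDiffAt ℝ 3 (fun y : X => ‖y‖) x
  nY : ∀ y : Y, y ≠ 0 → ContDiffAt ℝ 3 (fun y : Y => ‖y‖) y
  map : ∀ x : X, x ≠ 0 → ContDiffAt ℝ 3 Φ x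

theorem SphMap.N2_fderiv {Φ : X → Y} (hΦ : SphMap Φ) (hneg : ∀ x, Φ (-x) = -Φ x)
    (hs : Smooth3 Φ) {x : X} (hx : x ≠ 0) (u w : X) :
    N2 Y (Φ x) (fderiv ℝ Φ x u) (fderiv ℝ Φ x w) = N2 X x u w := by
  sorry

theorem SphMap.N1_fderiv2 {Φ : X → Y} (hΦ : SphMap Φ) (hneg : ∀ x, Φ (-x) = -Φ x)
    (hs : Smooth3 Φ) {x : X} (hx : x ≠ 0) (u w : X) :
    N1 Y (Φ x) (fderiv ℝ (fderiv ℝ Φ) x u w) = 0 := by
  sorry

theorem SphMap.N1_fderiv_tangent {Φ : X → Y} (hΦ : SphMap Φ)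
    (hs : Smooth3 Φ) {x : X} (hx : x ≠ 0) {v w : X} (hv0 : v ≠ 0) (hv : N1 X x v = 0)
    (hw : N1 X x w = 0) :
    N1 Y (fderiv ℝ Φ x v) (fderiv ℝ Φ x w) = N1 X v w := by
  sorry

theorem SphMap.exists_mu {Φ : X → Y} (hΦ : SphMap Φ)
    (hs : Smooth3 Φ) {x : X} (hx : x ≠ 0) {v : X} (hv0 : v ≠ 0) (hv : N1 X x v = 0) :
    ∃ μ : ℝ, ∀ u, N1 Y (fderiv ℝ Φ x v) (fderiv ℝ (fderiv ℝ Φ) x u v) = μ * N2 X x u v := by
  sorry

theorem SphMap.cubic_symm {Φ : X → Y} (hΦ : SphMap Φ) (hneg : ∀ x, Φ (-x) = -Φ x)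
    (hs : Smooth3 Φ) {x : X} (hx : x ≠ 0) (u v w : X) :
    N2 Y (Φ x) (fderiv ℝ (fderiv ℝ Φ) x u v) (fderiv ℝ Φ x w) =
      N2 Y (Φ x) (fderiv ℝ (fderiv ℝ Φ) x w v) (fderiv ℝ Φ x u) := by
  sorry

theorem SphMap.fderiv2_self {Φ : X → Y} (hΦ : SphMap Φ) {x : X} (hx : x ≠ 0)
    (hs : ContDiffAt ℝ 3 Φ x) : fderiv ℝ (fderiv ℝ Φ) x x = 0 := by
  sorry

/-! ## Row B5 -/

theorem SphMap.fderiv2_eq_zero [FiniteDimensional ℝ X] [FiniteDimensional ℝ Y]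
    (hX : SmoothStrong X) (hdim : 3 ≤ Module.finrank ℝ X) {Φ : X → Y} (hΦ : SphMap Φ)
    (hneg : ∀ x, Φ (-x) = -Φ x)
    (hs : Smooth3 Φ) {x : X} (hx : x ≠ 0) : fderiv ℝ (fderiv ℝ Φ) x = 0 := by
  sorry

/-! ## Row B6 -/

theorem SphMap.exists_linear [FiniteDimensional ℝ X]
    (hdim : 3 ≤ Module.finrank ℝ X) {Φ : X → Y} (hΦ : SphMap Φ)
    (hs : ∀ x : X, x ≠ 0 → ContDiffAt ℝ 2 Φ x)
    (h0 : ∀ x : X, x ≠ 0 → fderiv ℝ (fderiv ℝ Φ) x = 0) :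
    ∃ T : X ≃ₗᵢ[ℝ] Y, ∀ x, T x = Φ x := by
  sorry

/-! ## Main theorem -/

theorem mazurUlam_of_smoothStrong [FiniteDimensional ℝ X] (hX : SmoothStrong X)
    (hdim : 3 ≤ Module.finrank ℝ X) (f : sphere (0 : X) 1 → sphere (0 : Y) 1) (hf : Isometry f)
    (hs : Function.Surjective f) : ∃ T : X ≃ₗᵢ[ℝ] Y, ∀ x : sphere (0 : X) 1, T x = f x := by
  sorry

end Vale.Agent.H11.TS
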