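import Vale.Agent.H11.TS.B5

namespace Vale.Agent.H11.TS

open Filter Topology Metric

variable {X Y : Type*} [NormedAddCommGroup X] [NormedSpace ℝ X]
    [NormedAddCommGroup Y] [NormedSpace ℝ Y]

theorem mazurUlam_of_smoothStrong' [FiniteDimensional ℝ X] (hX : SmoothStrong X)
    (hdim : 3 ≤ Module.finrank ℝ X) (f : sphere (0 : X) 1 → sphere (0 : Y) 1) (hf : Isometry f)
    (hs : Function.Surjective f) : ∃ T : X ≃ₗᵢ[ℝ] Y, ∀ x : sphere (0 : X) 1, T x = f x := by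
  have := hX.strictConvex
  obtain ⟨Φ, hΦ, hΦf⟩ := exists_sphMap f hf hs
  have := hΦ.finiteDimensional
  have hneg := hΦ.neg
  have hnX : ∀ x : X, x ≠ 0 → ContDiffAt ℝ 3 (fun y : X => ‖y‖) x := fun x hx => hX.contDiffAt hx
  have hnY1 : ∀ y : Y, y ≠ 0 → ContDiffAt ℝ (1 : ℕ) (fun y : Y => ‖y‖) y := fun y hy =>
    contDiffAt_norm_of_unique (fun w hw φ ψ h1 h2 h3 h4 =>
      hΦ.unique_norming (fun x hx => (hnX x hx).differentiableAt (by norm_num)) w hw φ ψ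
        h1 h2 h3 h4) hy
  have hΦ1 : ∀ x : X, x ≠ 0 → ContDiffAt ℝ (1 : ℕ) Φ x := fun x hx =>
    hΦ.contDiffAt le_rfl (fun z hz => (hnX z hz).of_le (by norm_num)) hnY1 hx
  have hnY2 : ∀ y : Y, y ≠ 0 → ContDiffAt ℝ (2 : ℕ) (fun y : Y => ‖y‖) y := fun y hy =>
    hΦ.contDiffAt_norm_succ (k := 1) le_rfl (fun z hz => (hnX z hz).of_le (by norm_num))
      hnY1 hΦ1 hy
  have hΦ2 : ∀ x : X, x ≠ 0 → ContDiffAt ℝ (2 : ℕ) Φ x := fun x hx =>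
    hΦ.contDiffAt (by norm_num) (fun z hz => (hnX z hz).of_le (by norm_num)) hnY2 hx
  have hnY3 : ∀ y : Y, y ≠ 0 → ContDiffAt ℝ (3 : ℕ) (fun y : Y => ‖y‖) y := fun y hy =>
    hΦ.contDiffAt_norm_succ (k := 2) (by norm_num) (fun z hz => (hnX z hz).of_le (by norm_num))
      hnY2 hΦ2 hy
  have hΦ3 : ∀ x : X, x ≠ 0 → ContDiffAt ℝ (3 : ℕ) Φ x := fun x hx =>
    hΦ.contDiffAt (by norm_num) (fun z hz => (hnX z hz).of_le (by norm_num)) hnY3 hx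
  have hsm : Smooth3 Φ := ⟨hnX, hnY3, hΦ3⟩
  obtain ⟨T, hT⟩ := hΦ.exists_linear hdim (fun x hx => (hΦ3 x hx).of_le (by norm_num))
    (fun x hx => hΦ.fderiv2_eq_zero' hX hdim hneg hsm hx)
  exact ⟨T, fun x => by rw [hT, hΦf]⟩

end Vale.Agent.H11.TS
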