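import Vale.Agent.H11.TS.Defs

namespace Vale.Agent.H11.TS

open Filter Topology
open scoped RealInnerProductSpace

variable {E : Type*} [NormedAddCommGroup E] [InnerProductSpace ℝ E]
variable {F : E → ℝ} {n : E → E} {A : E → E →L[ℝ] E} {K : E →L[ℝ] E →L[ℝ] E}

/-! ## Row A0: basic facts -/

theorem NormData.F_zero (h : NormData F n A) : F 0 = 0 := by
  sorry

theorem NormData.n_smul (h : NormData F n A) {t : ℝ} (ht : 0 < t) {v : E} (hv : v ≠ 0) :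
    n (t • v) = n v := by
  sorry

theorem NormData.n_neg (h : NormData F n A) {v : E} (hv : v ≠ 0) : n (-v) = -n v := by
  sorry

theorem NormData.n_self (h : NormData F n A) {v : E} (hv : v ≠ 0) : ⟪n v, v⟫ = F v := by
  sorry

theorem NormData.n_le (h : NormData F n A) {v : E} (hv : v ≠ 0) (w : E) : ⟪n v, w⟫ ≤ F w := by
  sorry

theorem NormData.A_self (h : NormData F n A) {v : E} (hv : v ≠ 0) : A v v = 0 := by
  sorry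

/-! ## Row A1: maximum of a linear functional on the unit sphere of `F` -/

theorem NormData.exists_max [FiniteDimensional ℝ E] (h : NormData F n A) (ν : E) (hν : ν ≠ 0) :
    ∃ (V : E) (M : ℝ), 0 < M ∧ F V = 1 ∧ V ≠ 0 ∧ n V = M⁻¹ • ν ∧ (∀ z, ⟪ν, z⟫ ≤ M * F z) ∧
      ⟪ν, V⟫ = M := by
  sorry

/-! ## Row A2: the monotonicity device -/

theorem NormData.monotone_seq [FiniteDimensional ℝ E] (h : NormData F n A) (V W : E)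
    (hV : F V = 1) (hW : W ≠ 0) (hWV : ⟪W, V⟫ = 0) :
    ∃ (s : ℕ → ℝ) (Vj : ℕ → E) (c : ℕ → ℝ) (Y : E),
      (∀ j, 0 < s j) ∧ Tendsto s atTop (𝓝 0) ∧ (∀ j, 0 < c j) ∧ (∀ j, Vj j ≠ 0) ∧
      (∀ j, n (Vj j) = c j • (n V + s j • W)) ∧ Tendsto Vj atTop (𝓝 V) ∧ (∀ j, Vj j ≠ V) ∧
      Tendsto (fun j => ‖Vj j - V‖⁻¹ • (Vj j - V)) atTop (𝓝 Y) ∧ ‖Y‖ = 1 ∧ 0 < ⟪W, Y⟫ := by
  sorry

/-! ## Row A3: maximum of the cubic form -/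

theorem CubicData.exists_top [FiniteDimensional ℝ E] (hK : CubicData n K) (h0 : K ≠ 0) :
    ∃ (V0 : E) (κ : ℝ), ‖V0‖ = 1 ∧ 0 < κ ∧ K V0 V0 = κ • V0 ∧
      ∀ U, ⟪U, V0⟫ = 0 → ⟪K V0 U, U⟫ ≤ κ / 2 * ‖U‖ ^ 2 := by
  sorry

/-! ## Row A4: the gradient of `F` at the top direction -/

theorem n_top [FiniteDimensional ℝ E] (h : NormData F n A) (hK : CubicData n K) {V0 : E} {κ : ℝ}
    (h1 : ‖V0‖ = 1) (hκ : 0 < κ) (h2 : K V0 V0 = κ • V0)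
    (h3 : ∀ U, ⟪U, V0⟫ = 0 → ⟪K V0 U, U⟫ ≤ κ / 2 * ‖U‖ ^ 2) :
    ∃ c : ℝ, 0 < c ∧ n V0 = c • V0 := by
  sorry

/-! ## Row A5: positivity of `K V0` -/

theorem K_top_pos [FiniteDimensional ℝ E] (h : NormData F n A) (hK : CubicData n K) {V0 : E}
    {κ : ℝ} (h1 : ‖V0‖ = 1) (hκ : 0 < κ) (h2 : K V0 V0 = κ • V0)
    (h3 : ∀ U, ⟪U, V0⟫ = 0 → ⟪K V0 U, U⟫ ≤ κ / 2 * ‖U‖ ^ 2)
    {c : ℝ} (hc : 0 < c) (hn : n V0 = c • V0) :
    ∀ U, U ≠ 0 → 0 < ⟪K V0 U, U⟫ := by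
  sorry

/-! ## Row A6 -/

theorem K_eq_zero_of_eig (h : NormData F n A) (hK : CubicData n K) {V W : E} {μ : ℝ} (hV : V ≠ 0)
    (hμ : K (n V) V = μ • V) (hW : K (n V) W = μ • W) (hWV : ⟪W, V⟫ = 0) : K V W = 0 := by
  sorry

/-! ## Row A7 -/

theorem no_double [FiniteDimensional ℝ E] (h : NormData F n A) (hK : CubicData n K)
    {V W : E} {μ : ℝ} (hV : V ≠ 0) (hμ : K (n V) V = μ • V)
    (htop : ∀ w, ⟪K (n V) w, w⟫ ≤ μ * ‖w‖ ^ 2)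
    (hW0 : W ≠ 0) (hW : K (n V) W = μ • W) (hWV : ⟪W, V⟫ = 0)
    {V0 : E} (hpos : ∀ U, U ≠ 0 → 0 < ⟪K V0 U, U⟫) : False := by
  sorry

/-! ## Row A8: conclusion -/

theorem cubic_eq_zero [FiniteDimensional ℝ E] (h : NormData F n A) (hK : CubicData n K)
    (hdim : 2 ≤ Module.finrank ℝ E) : K = 0 := by
  sorry

end Vale.Agent.H11.TS
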